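import Vale.Agent.P235.K5.H12.Sep

set_option linter.all false

/-!
# Gluing of `L₁` metrics which agree on at most three points, and the induction over the bags
-/

namespace Vale.Agent.P235.K5

open Finset

section glue

variable {V : Type}

/-- pattern of a cut on three points, up to complement -/
def pat (a b c : V) (f : V → Bool) : Bool × Bool := (xor (f a) (f b), xor (f a) (f c))

/-- mass of a pattern -/
noncomputable def mass {ι : Type} [Fintype ι] (w : ι → ℝ) (f : ι → V → Bool) (a b c : V)
    (p : Bool × Bool) : ℝ := ∑ i, if pat a b c (f i) = p then w i else 0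

theorem mass_nonneg {ι : Type} [Fintype ι] {w : ι → ℝ} (hw : ∀ i, 0 ≤ w i) (f : ι → V → Bool)
    (a b c : V) (p : Bool × Bool) : 0 ≤ mass w f a b c p :=
  Finset.sum_nonneg fun i _ => by split_ifs; exacts [hw i, le_rfl]

theorem le_mass {ι : Type} [Fintype ι] {w : ι → ℝ} (hw : ∀ i, 0 ≤ w i) (f : ι → V → Bool)
    (a b c : V) (i : ι) : w i ≤ mass w f a b c (pat a b c (f i)) := by
  unfold mass
  have h1 : (if pat a b c (f i) = pat a b c (f i) then w i else 0) = w i := if_pos rfl
  rw [← h1]
  exact Finset.single_le_sum (f := fun j => if pat a b c (f j) = pat a b c (f i) then w j else 0)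
    (fun j _ => by split_ifs; exacts [hw j, le_rfl]) (Finset.mem_univ i)

/-- the masses of the nontrivial patterns are determined by the distances -/
theorem mass_eq {ι ι' : Type} [Fintype ι] [Fintype ι'] (w : ι → ℝ) (f : ι → V → Bool)
    (w' : ι' → ℝ) (f' : ι' → V → Bool) {a b c : V}
    (hab : ∑ i, w i * (if f i a = f i b then 0 else 1) =
      ∑ i, w' i * (if f' i a = f' i b then 0 else 1))
    (hac : ∑ i, w i * (if f i a = f i c then 0 else 1) =
      ∑ i, w' i * (if f' i a = f' i c then 0 else 1))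
    (hbc : ∑ i, w i * (if f i b = f i c then 0 else 1) =
      ∑ i, w' i * (if f' i b = f' i c then 0 else 1)) {p : Bool × Bool}
    (hp : p ≠ (false, false)) : mass w f a b c p = mass w' f' a b c p := by
  have key : ∀ (κ : Type) [Fintype κ] (u : κ → ℝ) (g : κ → V → Bool),
      mass u g a b c p =
        (if p.1 = p.2 then 0 else (1 : ℝ)) / 2 * (∑ i, u i * (if g i b = g i c then 0 else 1))
        + (if p.1 = true then 1 else -1) / 2 * (∑ i, u i * (if g i a = g i b then 0 else 1))
        + (if p.2 = true then 1 else -1) / 2 * (∑ i, u i * (if g i a = g i c then 0 else 1))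
        - (if p.1 = p.2 then 1 else (0 : ℝ)) / 2 *
          (∑ i, u i * (if g i b = g i c then 0 else 1)) := by
    intro κ _ u g
    unfold mass
    rw [Finset.mul_sum, Finset.mul_sum, Finset.mul_sum, Finset.mul_sum, ← Finset.sum_add_distrib,
      ← Finset.sum_add_distrib, ← Finset.sum_sub_distrib]
    refine Finset.sum_congr rfl fun i _ => ?_
    unfold pat
    obtain ⟨p1, p2⟩ := p
    cases p1 <;> cases p2 <;> cases g i a <;> cases g i b <;> cases g i c <;>
      simp_all <;> ring
  rw [key, key, hab, hac, hbc]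

/-- **Gluing of two `L₁` metrics which agree on three points.** -/
theorem glue_three {U W : Set V} {F₁ F₂ : V → V → ℝ} (h₁ : IsL1 F₁) (h₂ : IsL1 F₂) {a b c : V}
    (haU : a ∈ U) (haW : a ∈ W)
    (hS : ∀ v, v ∈ U → v ∈ W → v = a ∨ v = b ∨ v = c)
    (hab : F₁ a b = F₂ a b) (hac : F₁ a c = F₂ a c) (hbc : F₁ b c = F₂ b c) :
    ∃ F : V → V → ℝ, IsL1 F ∧ (∀ x ∈ U, ∀ y ∈ U, F x y = F₁ x y) ∧
      ∀ x ∈ W, ∀ y ∈ W, F x y = F₂ x y := by
  classical
  obtain ⟨ι, _, w, f, hw, hF₁⟩ := h₁
  obtain ⟨κ, _, u, g, hu, hF₂⟩ := h₂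
  set m := mass w f a b c with hm
  set m' := mass u g a b c with hm'
  have hmm : ∀ p, p ≠ (false, false) → m p = m' p := fun p hp =>
    mass_eq w f u g (by rw [← hF₁, ← hF₂]; exact hab) (by rw [← hF₁, ← hF₂]; exact hac)
      (by rw [← hF₁, ← hF₂]; exact hbc) hp
  -- the weights and the cuts
  let P : ι → Bool × Bool := fun i => pat a b c (f i)
  let Q : κ → Bool × Bool := fun j => pat a b c (g j)
  let wt : (ι × κ) ⊕ (ι ⊕ κ) → ℝ := fun z => match z with
    | Sum.inl (i, j) => if P i = Q j ∧ P i ≠ (false, false) then w i * u j / m (P i) else 0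
    | Sum.inr (Sum.inl i) => if P i = (false, false) then w i else 0
    | Sum.inr (Sum.inr j) => if Q j = (false, false) then u j else 0
  let ct : (ι × κ) ⊕ (ι ⊕ κ) → V → Bool := fun z v => match z with
    | Sum.inl (i, j) => if v ∈ U then xor (f i a) (f i v) else xor (g j a) (g j v)
    | Sum.inr (Sum.inl i) => if v ∈ U then xor (f i a) (f i v) else false
    | Sum.inr (Sum.inr j) => if v ∈ W then xor (g j a) (g j v) else false
  have hxor : ∀ p q r : Bool, ((xor p q) = (xor p r)) ↔ q = r := by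
    intro p q r; cases p <;> cases q <;> cases r <;> simp
  -- values of a cut on the common part
  have hcomm : ∀ i j, P i = Q j → ∀ v, v ∈ U → v ∈ W →
      xor (f i a) (f i v) = xor (g j a) (g j v) := by
    intro i j hij v hvU hvW
    have h1 : xor (f i a) (f i b) = xor (g j a) (g j b) := congrArg Prod.fst hij
    have h2 : xor (f i a) (f i c) = xor (g j a) (g j c) := congrArg Prod.snd hij
    rcases hS v hvU hvW with e | e | e
    · rw [e]; simp
    · rw [e]; exact h1
    · rw [e]; exact h2
  have hzero : ∀ (h : V → Bool), pat a b c h = (false, false) → ∀ v, v ∈ U → v ∈ W →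
      xor (h a) (h v) = false := by
    intro h hh v hvU hvW
    have h1 : xor (h a) (h b) = false := congrArg Prod.fst hh
    have h2 : xor (h a) (h c) = false := congrArg Prod.snd hh
    rcases hS v hvU hvW with e | e | e
    · rw [e]; simp
    · rw [e]; exact h1
    · rw [e]; exact h2
  refine ⟨fun x y => ∑ z, wt z * (if ct z x = ct z y then 0 else 1),
    ⟨(ι × κ) ⊕ (ι ⊕ κ), inferInstance, wt, ct, ?_, fun x y => rfl⟩, ?_, ?_⟩
  · rintro (⟨i, j⟩ | i | j)
    · show 0 ≤ if P i = Q j ∧ P i ≠ (false, false) then w i * u j / m (P i) else 0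
      split_ifs
      · exact div_nonneg (mul_nonneg (hw i) (hu j)) (mass_nonneg hw f a b c _)
      · exact le_rfl
    · show 0 ≤ if P i = (false, false) then w i else 0
      split_ifs
      exacts [hw i, le_rfl]
    · show 0 ≤ if Q j = (false, false) then u j else 0
      split_ifs
      exacts [hu j, le_rfl]
  · intro x hx y hy
    show ∑ z, wt z * (if ct z x = ct z y then 0 else 1) = F₁ x y
    rw [hF₁, Fintype.sum_sum_type, Fintype.sum_sum_type, Fintype.sum_prod_type]
    have e3 : ∑ j, wt (Sum.inr (Sum.inr j)) *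
        (if ct (Sum.inr (Sum.inr j)) x = ct (Sum.inr (Sum.inr j)) y then (0 : ℝ) else 1) = 0 := by
      refine Finset.sum_eq_zero fun j _ => ?_
      by_cases hj : Q j = (false, false)
      · have hc : ∀ v ∈ U, ct (Sum.inr (Sum.inr j)) v = false := by
          intro v hv
          show (if v ∈ W then xor (g j a) (g j v) else false) = false
          split_ifs with hvW
          · exact hzero (g j) hj v hv hvW
          · rfl
        rw [hc x hx, hc y hy, if_pos rfl, mul_zero]
      · have : wt (Sum.inr (Sum.inr j)) = 0 := if_neg hj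
        rw [this, zero_mul]
    rw [e3, add_zero, ← Finset.sum_add_distrib]
    refine Finset.sum_congr rfl fun i _ => ?_
    have hx1 : ∀ v ∈ U, ∀ j, ct (Sum.inl (i, j)) v = xor (f i a) (f i v) := fun v hv j =>
      if_pos hv
    have hx2 : ∀ v ∈ U, ct (Sum.inr (Sum.inl i)) v = xor (f i a) (f i v) := fun v hv =>
      if_pos hv
    have e1 : ∀ j, wt (Sum.inl (i, j)) *
        (if ct (Sum.inl (i, j)) x = ct (Sum.inl (i, j)) y then (0 : ℝ) else 1) =
        wt (Sum.inl (i, j)) * (if f i x = f i y then 0 else 1) := by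
      intro j
      rw [hx1 x hx, hx1 y hy]
      simp only [hxor]
    rw [Finset.sum_congr rfl fun j _ => e1 j, ← Finset.sum_mul, hx2 x hx, hx2 y hy]
    simp only [hxor]
    rw [← add_mul]
    congr 1
    by_cases hp : P i = (false, false)
    · have h1 : ∑ j, wt (Sum.inl (i, j)) = 0 := Finset.sum_eq_zero fun j _ =>
        if_neg fun h => h.2 hp
      have h2 : wt (Sum.inr (Sum.inl i)) = w i := if_pos hp
      rw [h1, h2, zero_add]
    · have h2 : wt (Sum.inr (Sum.inl i)) = 0 := if_neg hp
      rw [h2, add_zero]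
      have h3 : ∀ j, wt (Sum.inl (i, j)) = w i / m (P i) * (if Q j = P i then u j else 0) := by
        intro j
        show (if P i = Q j ∧ P i ≠ (false, false) then w i * u j / m (P i) else 0) = _
        by_cases hq : P i = Q j
        · rw [if_pos ⟨hq, hp⟩, if_pos hq.symm]
          ring
        · rw [if_neg fun h => hq h.1, if_neg fun h => hq h.symm, mul_zero]
      rw [Finset.sum_congr rfl fun j _ => h3 j, ← Finset.mul_sum]
      have h4 : (∑ j, if Q j = P i then u j else 0) = m' (P i) := rfl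
      rw [h4, ← hmm _ hp]
      by_cases hm0 : m (P i) = 0
      · have h5 : w i ≤ m (P i) := le_mass hw f a b c i
        have h6 : w i = 0 := le_antisymm (h5.trans hm0.le) (hw i)
        rw [h6, zero_div, zero_mul]
      · rw [div_mul_cancel₀ _ hm0]
  · intro x hx y hy
    show ∑ z, wt z * (if ct z x = ct z y then 0 else 1) = F₂ x y
    rw [hF₂, Fintype.sum_sum_type, Fintype.sum_sum_type, Fintype.sum_prod_type,
      Finset.sum_comm]
    have e3 : ∑ i, wt (Sum.inr (Sum.inl i)) *
        (if ct (Sum.inr (Sum.inl i)) x = ct (Sum.inr (Sum.inl i)) y then (0 : ℝ) else 1) = 0 := by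
      refine Finset.sum_eq_zero fun i _ => ?_
      by_cases hi : P i = (false, false)
      · have hc : ∀ v ∈ W, ct (Sum.inr (Sum.inl i)) v = false := by
          intro v hv
          show (if v ∈ U then xor (f i a) (f i v) else false) = false
          split_ifs with hvU
          · exact hzero (f i) hi v hvU hv
          · rfl
        rw [hc x hx, hc y hy, if_pos rfl, mul_zero]
      · have : wt (Sum.inr (Sum.inl i)) = 0 := if_neg hi
        rw [this, zero_mul]
    rw [e3, zero_add, ← Finset.sum_add_distrib]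
    refine Finset.sum_congr rfl fun j _ => ?_
    have hx2 : ∀ v ∈ W, ct (Sum.inr (Sum.inr j)) v = xor (g j a) (g j v) := fun v hv =>
      if_pos hv
    have e1 : ∀ i, wt (Sum.inl (i, j)) *
        (if ct (Sum.inl (i, j)) x = ct (Sum.inl (i, j)) y then (0 : ℝ) else 1) =
        wt (Sum.inl (i, j)) * (if g j x = g j y then 0 else 1) := by
      intro i
      by_cases hij : P i = Q j
      · have hx1 : ∀ v ∈ W, ct (Sum.inl (i, j)) v = xor (g j a) (g j v) := by
          intro v hv
          show (if v ∈ U then xor (f i a) (f i v) else xor (g j a) (g j v)) = _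
          split_ifs with hvU
          · exact hcomm i j hij v hvU hv
          · rfl
        rw [hx1 x hx, hx1 y hy]
        simp only [hxor]
      · have h0 : wt (Sum.inl (i, j)) = 0 := if_neg fun h => hij h.1
        rw [h0, zero_mul, zero_mul]
    rw [Finset.sum_congr rfl fun i _ => e1 i, ← Finset.sum_mul, hx2 x hx, hx2 y hy]
    simp only [hxor]
    rw [← add_mul]
    congr 1
    by_cases hp : Q j = (false, false)
    · have h1 : ∑ i, wt (Sum.inl (i, j)) = 0 := Finset.sum_eq_zero fun i _ =>
        if_neg fun h => h.2 (h.1.trans hp)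
      have h2 : wt (Sum.inr (Sum.inr j)) = u j := if_pos hp
      rw [h1, h2, zero_add]
    · have h2 : wt (Sum.inr (Sum.inr j)) = 0 := if_neg hp
      rw [h2, add_zero]
      have h3 : ∀ i, wt (Sum.inl (i, j)) = u j / m (Q j) * (if P i = Q j then w i else 0) := by
        intro i
        show (if P i = Q j ∧ P i ≠ (false, false) then w i * u j / m (P i) else 0) = _
        by_cases hq : P i = Q j
        · rw [if_pos ⟨hq, by rw [hq]; exact hp⟩, if_pos hq, hq]
          ring
        · rw [if_neg fun h => hq h.1, if_neg hq, mul_zero]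
      rw [Finset.sum_congr rfl fun i _ => h3 i, ← Finset.mul_sum]
      have h4 : (∑ i, if P i = Q j then w i else 0) = m (Q j) := rfl
      rw [h4]
      by_cases hm0 : m (Q j) = 0
      · have h5 : u j ≤ m' (Q j) := le_mass hu g a b c j
        rw [← hmm _ hp] at h5
        have h6 : u j = 0 := le_antisymm (h5.trans hm0.le) (hu j)
        rw [h6, zero_div, zero_mul]
      · rw [div_mul_cancel₀ _ hm0]

/-- restriction of the cuts to a set -/
theorem restr {U : Set V} {F : V → V → ℝ} (h : IsL1 F) :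
    ∃ F' : V → V → ℝ, IsL1 F' ∧ (∀ x ∈ U, ∀ y ∈ U, F' x y = F x y) ∧
      ∀ x ∉ U, ∀ y ∉ U, F' x y = 0 := by
  classical
  obtain ⟨ι, _, w, f, hw, hF⟩ := h
  refine ⟨fun x y => ∑ i, w i * (if (if x ∈ U then f i x else false) =
    (if y ∈ U then f i y else false) then 0 else 1),
    ⟨ι, inferInstance, w, fun i x => if x ∈ U then f i x else false, hw, fun x y => rfl⟩, ?_, ?_⟩
  · intro x hx y hy
    show ∑ i, _ = _
    rw [hF]
    refine Finset.sum_congr rfl fun i _ => ?_
    rw [if_pos hx, if_pos hy]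
  · intro x hx y hy
    show ∑ i, _ = _
    refine Finset.sum_eq_zero fun i _ => ?_
    rw [if_neg hx, if_neg hy, if_pos rfl, mul_zero]

/-- **Gluing of two `L₁` metrics which agree on a set of at most three points.** -/
theorem glue_small [Finite V] {U W : Set V} {F₁ F₂ : V → V → ℝ} (h₁ : IsL1 F₁) (h₂ : IsL1 F₂)
    (hc : (U ∩ W).ncard ≤ 3) (hag : ∀ x ∈ U ∩ W, ∀ y ∈ U ∩ W, F₁ x y = F₂ x y) :
    ∃ F : V → V → ℝ, IsL1 F ∧ (∀ x ∈ U, ∀ y ∈ U, F x y = F₁ x y) ∧
      ∀ x ∈ W, ∀ y ∈ W, F x y = F₂ x y := by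
  classical
  rcases Set.eq_empty_or_nonempty (U ∩ W) with he | hne
  · obtain ⟨F₁', h1, h2, h3⟩ := restr (U := U) h₁
    obtain ⟨F₂', h1', h2', h3'⟩ := restr (U := W) h₂
    have hUW : ∀ x ∈ U, x ∉ W := fun x hx hx' => by
      have : x ∈ U ∩ W := ⟨hx, hx'⟩
      rw [he] at this
      exact this
    refine ⟨fun x y => F₁' x y + F₂' x y, h1.add h1', ?_, ?_⟩
    · intro x hx y hy
      show F₁' x y + F₂' x y = _
      rw [h2 x hx y hy, h3' x (hUW x hx) y (hUW y hy), add_zero]
    · intro x hx y hy
      show F₁' x y + F₂' x y = _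
      rw [h2' x hx y hy, h3 x (fun h => hUW x h hx) y (fun h => hUW y h hy), zero_add]
  · -- three points
    have key : ∃ a b c, a ∈ U ∩ W ∧ b ∈ U ∩ W ∧ c ∈ U ∩ W ∧
        ∀ v ∈ U ∩ W, v = a ∨ v = b ∨ v = c := by
      have hfin := Set.toFinite (U ∩ W)
      have h0 : 0 < (U ∩ W).ncard := (Set.ncard_pos hfin).2 hne
      have h4 : (U ∩ W).ncard = 1 ∨ (U ∩ W).ncard = 2 ∨ (U ∩ W).ncard = 3 := by omega
      rcases h4 with h | h | h
      · obtain ⟨a, ha⟩ := Set.ncard_eq_one.1 h
        refine ⟨a, a, a, ?_, ?_, ?_, ?_⟩ <;> simp [ha]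
      · obtain ⟨a, b, _, hb⟩ := Set.ncard_eq_two.1 h
        refine ⟨a, b, b, ?_, ?_, ?_, ?_⟩ <;> simp [hb]
      · obtain ⟨a, b, c, _, _, _, hb⟩ := Set.ncard_eq_three.1 h
        refine ⟨a, b, c, ?_, ?_, ?_, ?_⟩ <;> simp [hb]
    obtain ⟨a, b, c, ha, hb, hcc, hall⟩ := key
    exact glue_three h₁ h₂ ha.1 ha.2 (fun v h1 h2 => hall v ⟨h1, h2⟩) (hag a ha b hb)
      (hag a ha c hcc) (hag b hb c hcc)

end glue

/-- extension of an `L₁` metric from a subset -/
theorem extendL1 {V : Type} {U : Set V} {F : U → U → ℝ} (h : IsL1 F) :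
    ∃ F' : V → V → ℝ, IsL1 F' ∧ ∀ x y : U, F' x y = F x y := by
  classical
  obtain ⟨ι, _, w, f, hw, hF⟩ := h
  refine ⟨fun x y => ∑ i, w i * (if (if hx : x ∈ U then f i ⟨x, hx⟩ else false) =
    (if hy : y ∈ U then f i ⟨y, hy⟩ else false) then 0 else 1),
    ⟨ι, inferInstance, w, fun i x => if hx : x ∈ U then f i ⟨x, hx⟩ else false, hw,
      fun x y => rfl⟩, ?_⟩
  intro x y
  show ∑ i, _ = _
  rw [hF]
  refine Finset.sum_congr rfl fun i _ => ?_
  rw [dif_pos x.2, dif_pos y.2]

/-- **The induction over the bags**: pieces with prescribed metric on the root clique. -/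
theorem Glued.exists_A {V : Type} [Finite V] {H : SimpleGraph V} {n : ℕ} {B : ℕ → Set V}
    (h : Glued 3 H n B) {d : V → V → ℝ} (hd : IsMet d) (hG : Gen H d) {c : ℝ}
    (hP : ∀ t < n, ∀ ρ : V → V → ℝ, IsL1 ρ →
      (∀ x ∈ Adh B t, ∀ y ∈ Adh B t, c * d x y ≤ ρ x y ∧ ρ x y ≤ d x y) →
      ∃ F : V → V → ℝ, IsL1 F ∧ (∀ x ∈ Adh B t, ∀ y ∈ Adh B t, F x y = ρ x y) ∧
        ∀ x ∈ B t, ∀ y ∈ B t, c * d x y ≤ F x y ∧ F x y ≤ d x y) :
    ∃ F : V → V → ℝ, IsL1 F ∧ (∀ x y, F x y ≤ d x y) ∧
      ∀ t < n, ∀ x ∈ B t, ∀ y ∈ B t, c * d x y ≤ F x y := by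
  classical
  obtain ⟨T⟩ := h.exists_tree
  have key : ∀ m ≤ n, ∃ F : V → V → ℝ, IsL1 F ∧
      (∀ x ∈ Bef B m, ∀ y ∈ Bef B m, F x y ≤ d x y) ∧
      ∀ t < m, ∀ x ∈ B t, ∀ y ∈ B t, c * d x y ≤ F x y := by
    intro m
    induction m with
    | zero =>
      intro _
      refine ⟨fun _ _ => 0, ⟨Empty, inferInstance, fun _ => 0, fun e => e.elim,
        fun e => e.elim, fun x y => by simp⟩, ?_, ?_⟩
      · rintro x ⟨s, hs, _⟩
        omega
      · intro t ht
        omega
    | succ m ih =>
      intro hm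
      obtain ⟨F₁, hF1, hup, hlow⟩ := ih (by omega)
      have hmn : m < n := by omega
      obtain ⟨F₂, hF2, hag, hb⟩ := hP m hmn F₁ hF1 (by
        intro x hx y hy
        refine ⟨?_, hup x hx.2 y hy.2⟩
        rcases Nat.eq_zero_or_pos m with h0 | h0
        · obtain ⟨s, hs, _⟩ := hx.2
          omega
        · exact hlow (T.par m) (T.par_lt m h0 hmn) x (T.adh m h0 hmn hx) y
            (T.adh m h0 hmn hy))
      have hS : Bef B m ∩ B m = Adh B m := by
        ext v
        exact ⟨fun hv => ⟨hv.2, hv.1⟩, fun hv => ⟨hv.2, hv.1⟩⟩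
      obtain ⟨F, hF, h1, h2⟩ := glue_small (U := Bef B m) (W := B m) hF1 hF2
        (by rw [hS]; exact h.card m hmn) (by
          rw [hS]
          intro x hx y hy
          exact (hag x hx y hy).symm)
      have hcases : ∀ v ∈ Bef B (m + 1), v ∈ Bef B m ∨ v ∈ B m := by
        rintro v ⟨s, hs, hv⟩
        by_cases e : s = m
        · right; rw [← e]; exact hv
        · left; exact ⟨s, by omega, hv⟩
      have hmix : ∀ x ∈ Bef B m, ∀ y ∈ B m, F x y ≤ d x y := by
        intro x hx y hy
        by_cases hyU : y ∈ Bef B m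
        · rw [h1 x hx y hyU]
          exact hup x hx y hyU
        by_cases hxW : x ∈ B m
        · rw [h2 x hxW y hy]
          exact (hb x hxW y hy).2
        have hiy : h.it y = m := by
          refine le_antisymm (h.it_le hmn hy) ?_
          by_contra hcon
          exact hyU ((h.mem_bef_iff hmn.le).2 (not_le.1 hcon))
        have hys : y ∈ h.Sub T m := by
          show T.Desc m (h.it y)
          rw [hiy]
          exact BTree.Desc.refl m
        have hxs : x ∉ h.Sub T m := by
          intro hcon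
          have h3 : m ≤ h.it x := BTree.Desc.le hcon
          have h4 := (h.mem_bef_iff hmn.le).1 hx
          omega
        obtain ⟨a, ha, h5⟩ := h.sep_metric hd hG hys hxs
        have h6 := hF.tri x a y
        have h7 : F x a ≤ d x a := by
          rw [h1 x hx a ha.2]
          exact hup x hx a ha.2
        have h8 : F a y ≤ d a y := by
          rw [h2 a ha.1 y hy]
          exact (hb a ha.1 y hy).2
        rw [hd.symm y a, hd.symm a x, hd.symm y x] at h5
        linarith
      refine ⟨F, hF, ?_, ?_⟩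
      · intro x hx y hy
        rcases hcases x hx with hx' | hx' <;> rcases hcases y hy with hy' | hy'
        · rw [h1 x hx' y hy']
          exact hup x hx' y hy'
        · exact hmix x hx' y hy'
        · rw [hF.symm, hd.symm]
          exact hmix y hy' x hx'
        · rw [h2 x hx' y hy']
          exact (hb x hx' y hy').2
      · intro t ht x hx y hy
        by_cases e : t = m
        · rw [e] at hx hy
          rw [h2 x hx y hy]
          exact (hb x hx y hy).1
        · rw [h1 x ⟨t, by omega, hx⟩ y ⟨t, by omega, hy⟩]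
          exact hlow t (by omega) x hx y hy
  obtain ⟨F, hF, h1, h2⟩ := key n le_rfl
  exact ⟨F, hF, fun x y => h1 x (h.cover x) y (h.cover y), h2⟩

end Vale.Agent.P235.K5
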