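import Vale.Agent.P235.K5.H12.Red
import Vale.Agent.P235.K5.H500.Bag
import Vale.Agent.P235.K5.H578.NHalf
import Vale.Agent.P235.R2.H598.PSum

set_option linter.all false

/-!
# Clique sums over at most three vertices: the final assembly
-/

namespace Vale.Agent.P235.K5.H12

open Finset Function Vale.Agent.P235 Vale.Agent.P235.H684 Vale.Agent.P235.K5

/-- the cut metric of Theorem N on the vertices of the clique sum -/
theorem exists_N {k m : ℕ} {V : Type} [Finite V] {H : SimpleGraph V} {B : ℕ → Set V}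
    (h : Glued k H m B) (hnew : ∀ t < m, ∃ v ∈ B t, v ∉ Bef B t) (T : BTree m B) (hk : 1 ≤ k)
    {C1 : ℝ} (hC1 : 0 ≤ C1)
    (hN : ∀ (n T : ℕ) (Z : Tor n T k) (d : Fin n → Fin n → ℝ), Z.Sep d → Z.NLaw d C1)
    {d : V → V → ℝ} (hd : IsMet d) (hG : Gen H d) :
    ∃ F : V → V → ℝ, IsL1 F ∧ (∀ t < m, ∀ x ∈ B t, ∀ y ∈ B t, F x y ≤ d x y) ∧
      ∀ t < m, 0 < t → ∀ x ∈ h.Sub T t, ∀ y ∉ h.Sub T t, ∀ r : ℝ, 0 < r →
        (∀ a ∈ Adh B t, r ≤ d x a) → r ≤ C1 * H254.KK (2 ^ k) * F x y := by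
  obtain ⟨N, e, Z, h1, h2, h3, h4, h5, h6⟩ := h.exists_tor hnew T
  have hsep := h6 d hd hG
  obtain ⟨F, g1, g2, g3⟩ := H578.n_half Z hk hC1 (hN _ _ Z _ hsep)
  refine ⟨fun x y => F (e x) (e y), ?_, ?_, ?_⟩
  · obtain ⟨ι, hι, w, c, hw, hF⟩ := g1
    exact ⟨ι, hι, w, fun i x => c i (e x), hw, fun x y => hF _ _⟩
  · intro t ht x hx y hy
    have := g2 ⟨t, ht⟩ (e x) ((h3 ⟨t, ht⟩ x).2 hx) (e y) ((h3 ⟨t, ht⟩ y).2 hy)
    simpa using this
  · intro t ht h0 x hx y hy r hr ha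
    refine g3 ⟨t, ht⟩ (Nat.pos_iff_ne_zero.1 h0) (e x) ((h5 ⟨t, ht⟩ x).2 hx) (e y)
      (fun hc => hy ((h5 ⟨t, ht⟩ y).1 hc)) r hr ?_
    intro a hal
    have h7 : e.symm a ∈ Adh B t := by
      rw [← h2 ⟨t, ht⟩, e.apply_symm_apply]
      exact hal
    have := ha _ h7
    simpa using this

/-- **Cross pairs.** -/
theorem cross {k m : ℕ} {V : Type} [Finite V] {H : SimpleGraph V} {B : ℕ → Set V}
    (h : Glued k H m B) (T : BTree m B) {d : V → V → ℝ} (hd : IsMet d) {c C2 : ℝ}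
    (hc : 0 < c) (hc1 : c ≤ 1) (hC2 : 0 < C2) {FA FN : V → V → ℝ} (hA : IsL1 FA) (hN : IsL1 FN)
    (hA1 : ∀ x y, FA x y ≤ d x y) (hA2 : ∀ t < m, ∀ x ∈ B t, ∀ y ∈ B t, c * d x y ≤ FA x y)
    (hN2 : ∀ t < m, 0 < t → ∀ x ∈ h.Sub T t, ∀ y ∉ h.Sub T t, ∀ r : ℝ, 0 < r →
        (∀ a ∈ Adh B t, r ≤ d x a) → r ≤ C2 * FN x y) (x y : V) :
    min (c / 2) (c / (8 * C2)) * d x y ≤ FA x y + FN x y := by
  rcases eq_or_ne x y with e | e
  · rw [e, hd.self, mul_zero]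
    exact add_nonneg (hA.nonneg _ _) (hN.nonneg _ _)
  have hdp : 0 < d x y := hd.pos x y e
  have hAn := hA.nonneg x y
  have hNn := hN.nonneg x y
  -- a far vertex
  have far : ∀ t < m, 0 < t → ∀ u v : V, u ∈ h.Sub T t → v ∉ h.Sub T t → d u v = d x y →
      FN u v = FN x y → (∀ a ∈ Adh B t, c / 8 * d x y ≤ d u a) →
      min (c / 2) (c / (8 * C2)) * d x y ≤ FA x y + FN x y := by
    intro t ht h0 u v hu hv hduv hF hfar
    have h1 := hN2 t ht h0 u hu v hv (c / 8 * d x y) (by positivity) hfar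
    rw [hF] at h1
    have h2 : min (c / 2) (c / (8 * C2)) * d x y ≤ c / (8 * C2) * d x y :=
      mul_le_mul_of_nonneg_right (min_le_right _ _) hdp.le
    have h3 : c / (8 * C2) * d x y ≤ FN x y := by
      have h4 : c / (8 * C2) * d x y = (c / 8 * d x y) / C2 := by
        field_simp
      rw [h4, div_le_iff₀ hC2]
      linarith
    linarith
  obtain ⟨t, ht, hx1, hy1, hx2, hy2⟩ := h.last_bag T x y
  -- the near point of the bag
  have near : ∀ u v : V, (h.it u = t ∨ ∃ c, t < c ∧ c < m ∧ T.par c = t ∧ u ∈ h.Sub T c ∧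
      v ∉ h.Sub T c) → d u v = d x y → FN u v = FN x y →
      (min (c / 2) (c / (8 * C2)) * d x y ≤ FA x y + FN x y) ∨
        ∃ a ∈ B t, d u a < c / 8 * d x y := by
    intro u v hu hduv hF
    rcases hu with hu | ⟨c', h1, h2, h3, h4, h5⟩
    · right
      refine ⟨u, ?_, ?_⟩
      · rw [← hu]
        exact h.it_mem u
      · rw [hd.self]
        positivity
    · by_cases hfar : ∀ a ∈ Adh B c', c / 8 * d x y ≤ d u a
      · left
        exact far c' h2 (by omega) u v h4 h5 hduv hF hfar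
      · right
        push Not at hfar
        obtain ⟨a, ha, h6⟩ := hfar
        refine ⟨a, ?_, h6⟩
        have h7 := T.adh c' (by omega) h2 ha
        rwa [h3] at h7
  rcases near x y hx2 rfl rfl with h1 | ⟨a, ha, hxa⟩
  · exact h1
  rcases near y x hy2 (hd.symm y x) (hN.symm y x) with h1 | ⟨b, hb, hyb⟩
  · exact h1
  have h1 := hA2 t ht a ha b hb
  have h2 := hA1 x a
  have h3 := hA1 y b
  have h4 := hA.tri a x b
  have h5 := hA.tri x y b
  have h6 := hd.tri x a y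
  have h7 := hd.tri a b y
  rw [hA.symm a x] at h4
  rw [hd.symm b y] at h7
  have h8 : min (c / 2) (c / (8 * C2)) * d x y ≤ c / 2 * d x y :=
    mul_le_mul_of_nonneg_right (min_le_left _ _) hdp.le
  have h9 : c * (d x y - 2 * (c / 8 * d x y)) ≤ c * d a b :=
    mul_le_mul_of_nonneg_left (by linarith) hc.le
  have h10 : 0 ≤ (1 - c) * (c * d x y) :=
    mul_nonneg (by linarith) (mul_nonneg hc.le hdp.le)
  have h11 : 0 ≤ c * d x y := mul_nonneg hc.le hdp.le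
  nlinarith

/-- **The embedding of a clique sum.** -/
theorem emb {m : ℕ} {V : Type} [Finite V] {H : SimpleGraph V} {B : ℕ → Set V}
    (h : Glued 3 H m B) (hnew : ∀ t < m, ∃ v ∈ B t, v ∉ Bef B t) {C1 : ℝ} (hC1 : 0 < C1)
    (hN : ∀ (n T : ℕ) (Z : Tor n T 3) (d : Fin n → Fin n → ℝ), Z.Sep d → Z.NLaw d C1)
    (hPr : PrescStmt) {c : ℝ} (hc : 0 < c) (hc1 : c ≤ 1)
    (hB : ∀ t < m, H500.PC c (B t) (H.induce (B t)) {x | (x : V) ∈ Adh B t})
    {d : V → V → ℝ} (hd : IsMet d) (hG : Gen H d) :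
    R2.H598.Emb d (min (c / 12288 / 2) (c / 12288 / (8 * (C1 * H254.KK (2 ^ 3)))) / 2) := by
  obtain ⟨T⟩ := h.exists_tree
  obtain ⟨FA, hA, hA1, hA2⟩ := H500.exists_A_of hPr h hc hc1 hB hd hG
  obtain ⟨FN, hN0, hN1, hN2⟩ := exists_N h hnew T (by norm_num) hC1.le hN hd hG
  have hK : 0 < C1 * H254.KK (2 ^ 3) := mul_pos hC1 (KK_pos _)
  have hN1' : ∀ x y, FN x y ≤ d x y := by
    refine hN0.le_of_gen hG fun u v huv => ?_
    rcases le_total (h.it u) (h.it v) with h1 | h1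
    · exact hN1 _ (h.it_lt v) u (h.edge huv h1) v (h.it_mem v)
    · exact hN1 _ (h.it_lt u) u (h.it_mem u) v (h.edge huv.symm h1)
  have hcr := cross h T hd (by positivity : 0 < c / 12288) (by linarith) hK hA hN0 hA1 hA2 hN2
  refine ⟨fun x y => 1 / 2 * (FA x y + FN x y), (hA.add hN0).smul (by norm_num), ?_, ?_⟩
  · intro x y
    have h1 := hcr x y
    show _ ≤ 1 / 2 * (FA x y + FN x y)
    linarith
  · intro x y
    have h1 := hA1 x y
    have h2 := hN1' x y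
    show 1 / 2 * (FA x y + FN x y) ≤ _
    linarith

/-- **Clique sums over at most three vertices.** -/
theorem fin (hN : ∀ k : ℕ, 1 ≤ k → ∃ C1 : ℝ, 0 < C1 ∧ ∀ (n T : ℕ) (Z : Tor n T k)
      (d : Fin n → Fin n → ℝ), Z.Sep d → Z.NLaw d C1)
    (hPr : PrescStmt) (c : ℝ) (hc : 0 < c) (hc1 : c ≤ 1) :
    ∃ K : ℝ, 1 ≤ K ∧ ∀ (V : Type) [Finite V] (G H : SimpleGraph V), G ≤ H → G.Connected →
      CliqueSum 3 (H500.PC c) H → DistortionLE G K := by
  obtain ⟨C1, hC1, hN3⟩ := hN 3 (by norm_num)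
  have hK : 0 < C1 * H254.KK (2 ^ 3) := mul_pos hC1 (KK_pos _)
  set c' : ℝ := min (c / 12288 / 2) (c / 12288 / (8 * (C1 * H254.KK (2 ^ 3)))) / 2 with hc'
  have hc'0 : 0 < c' := by
    rw [hc']
    have : 0 < min (c / 12288 / 2) (c / 12288 / (8 * (C1 * H254.KK (2 ^ 3)))) :=
      lt_min (by positivity) (by positivity)
    linarith
  have hc'1 : c' ≤ 1 := by
    rw [hc']
    have : min (c / 12288 / 2) (c / 12288 / (8 * (C1 * H254.KK (2 ^ 3)))) ≤ c / 12288 / 2 :=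
      min_le_left _ _
    linarith
  refine ⟨1 / c', (one_le_div hc'0).2 hc'1, ?_⟩
  intro V _ G H hle hconn hCS ℓ hℓ
  obtain ⟨m, B, h, hnew, hB⟩ := hCS.reduce
  have hd := pathDist_isMet hconn hℓ
  have hgenG : Gen G (pathDist G ℓ) := by
    intro f hf x y
    exact pathDist_gen hconn (fun u v huv => (hf u v huv).trans (pathDist_adj hℓ huv)) x y
  have hgen : Gen H (pathDist G ℓ) := fun f hf => hgenG f (fun u v huv => hf u v (hle huv))
  exact (emb h hnew hC1 hN3 hPr hc hc1 hB hd hgen).embedsL1 hc'0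

end Vale.Agent.P235.K5.H12
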