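import Vale.Agent.P235.K5.H12.A
import Vale.Agent.P235.K5.Glue
import Vale.Agent.P235.K5.H578.Lin

set_option linter.all false

/-!
# Removal of superfluous bags, and the tree of torsos of a clique sum
-/

namespace Vale.Agent.P235.K5

open Finset Function Vale.Agent.P235.H684

namespace Glued

variable {k : ℕ} {V : Type} {H : SimpleGraph V}

/-- **Every bag may be assumed to have a new vertex.** -/
theorem reduce : ∀ (n : ℕ) (B : ℕ → Set V), Glued k H n B → ∃ (n' : ℕ) (B' : ℕ → Set V),
    Glued k H n' B' ∧ (∀ t < n', ∃ v ∈ B' t, v ∉ Bef B' t) ∧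
      ∀ t < n', ∃ s < n, B' t = B s ∧ Adh B' t = Adh B s := by
  intro n
  induction n with
  | zero =>
    intro B h
    exact ⟨0, B, h, fun t ht => by omega, fun t ht => by omega⟩
  | succ n ih =>
    intro B h
    by_cases hall : ∀ t < n + 1, ∃ v ∈ B t, v ∉ Bef B t
    · exact ⟨n + 1, B, h, hall, fun t ht => ⟨t, ht, rfl, rfl⟩⟩
    · push Not at hall
      obtain ⟨t0, ht0, hB0⟩ := hall
      set B1 : ℕ → Set V := fun t => if t < t0 then B t else B (t + 1) with hB1
      have e1 : ∀ t, t < t0 → B1 t = B t := fun t ht => if_pos ht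
      have e2 : ∀ t, t0 ≤ t → B1 t = B (t + 1) := fun t ht => if_neg (not_lt.2 ht)
      have b1 : ∀ t, t ≤ t0 → Bef B1 t = Bef B t := by
        intro t ht
        ext v
        constructor
        · rintro ⟨s, hs, hv⟩
          rw [e1 s (by omega)] at hv
          exact ⟨s, hs, hv⟩
        · rintro ⟨s, hs, hv⟩
          refine ⟨s, hs, ?_⟩
          rw [e1 s (by omega)]
          exact hv
      have b2 : ∀ t, t0 ≤ t → Bef B1 t = Bef B (t + 1) := by
        intro t ht
        ext v
        constructor
        · rintro ⟨s, hs, hv⟩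
          by_cases h1 : s < t0
          · rw [e1 s h1] at hv
            exact ⟨s, by omega, hv⟩
          · rw [e2 s (by omega)] at hv
            exact ⟨s + 1, by omega, hv⟩
        · rintro ⟨s, hs, hv⟩
          have low : ∀ s < t0, v ∈ B s → v ∈ Bef B1 t := by
            intro s h1 hv
            refine ⟨s, by omega, ?_⟩
            rw [e1 s h1]
            exact hv
          rcases lt_trichotomy s t0 with h1 | h1 | h1
          · exact low s h1 hv
          · rw [h1] at hv
            obtain ⟨s', hs', hv'⟩ := hB0 v hv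
            exact low s' hs' hv'
          · refine ⟨s - 1, by omega, ?_⟩
            rw [e2 (s - 1) (by omega)]
            have : s - 1 + 1 = s := by omega
            rw [this]
            exact hv
      have hmap : ∀ t, t < n → ∃ s < n + 1, B1 t = B s ∧ Bef B1 t = Bef B s := by
        intro t ht
        by_cases h1 : t < t0
        · exact ⟨t, by omega, e1 t h1, b1 t h1.le⟩
        · exact ⟨t + 1, by omega, e2 t (by omega), b2 t (by omega)⟩
      have hadh : ∀ t s, B1 t = B s → Bef B1 t = Bef B s → Adh B1 t = Adh B s := by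
        intro t s h1 h2
        unfold Adh
        rw [h1, h2]
      have hG1 : Glued k H n B1 := by
        refine ⟨?_, ?_, ?_, ?_⟩
        · intro v
          have hv1 := h.it_lt v
          have hv2 := h.it_mem v
          have hne : h.it v ≠ t0 := by
            intro e
            rw [e] at hv2
            have h3 := (h.mem_bef_iff ht0.le).1 (hB0 v hv2)
            omega
          rcases Nat.lt_or_gt_of_ne hne with h3 | h3
          · refine ⟨h.it v, by omega, ?_⟩
            rw [e1 _ h3]
            exact hv2
          · refine ⟨h.it v - 1, by omega, ?_⟩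
            rw [e2 _ (by omega)]
            have : h.it v - 1 + 1 = h.it v := by omega
            rw [this]
            exact hv2
        · intro t ht
          obtain ⟨s, hs, h1, h2⟩ := hmap t ht
          rw [hadh t s h1 h2]
          exact h.card s hs
        · intro t ht
          obtain ⟨s, hs, h1, h2⟩ := hmap t ht
          rw [hadh t s h1 h2]
          exact h.clique s hs
        · intro t ht
          obtain ⟨s, hs, h1, h2⟩ := hmap t ht
          rw [h1, h2]
          exact h.sep s hs
      obtain ⟨n', B', h1, h2, h3⟩ := ih B1 hG1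
      refine ⟨n', B', h1, h2, fun t ht => ?_⟩
      obtain ⟨s, hs, h4, h5⟩ := h3 t ht
      obtain ⟨s', hs', h6, h7⟩ := hmap s hs
      exact ⟨s', hs', h4.trans h6, h5.trans (hadh s s' h6 h7)⟩

end Glued

/-- the pieces of a clique sum, with a new vertex in every bag -/
theorem CliqueSum.reduce {k : ℕ} {P : ∀ V : Type, SimpleGraph V → Set V → Prop} {V : Type}
    {H : SimpleGraph V} (h : CliqueSum k P H) : ∃ (n : ℕ) (B : ℕ → Set V), Glued k H n B ∧
      (∀ t < n, ∃ v ∈ B t, v ∉ Bef B t) ∧
      ∀ t < n, P (B t) (H.induce (B t)) {x | (x : V) ∈ Adh B t} := by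
  obtain ⟨n, B, h1, h2⟩ := h
  obtain ⟨n', B', h3, h4, h5⟩ := Glued.reduce n B h1
  refine ⟨n', B', h3, h4, fun t ht => ?_⟩
  obtain ⟨s, hs, e1, e2⟩ := h5 t ht
  have h6 := h2 s hs
  rw [e2, e1]
  exact h6

namespace Glued

variable {k m : ℕ} {V : Type} {H : SimpleGraph V} {B : ℕ → Set V}

/-- **The tree of torsos of a clique sum.** -/
theorem exists_tor [Finite V] (h : Glued k H m B) (hnew : ∀ t < m, ∃ v ∈ B t, v ∉ Bef B t)
    (T : BTree m B) : ∃ (N : ℕ) (e : V ≃ Fin N) (Z : Tor N m k),
      (∀ v, (Z.tor (e v)).val = h.it v) ∧ (∀ t : Fin m, ∀ v, e v ∈ Z.S t ↔ v ∈ Adh B t) ∧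
      (∀ t : Fin m, ∀ v, e v ∈ Z.H t ↔ v ∈ B t) ∧ (∀ t : Fin m, (Z.up t).val = T.par t) ∧
      (∀ t : Fin m, ∀ v, Z.Below t (e v) ↔ v ∈ h.Sub T t) ∧
      ∀ d : V → V → ℝ, IsMet d → Gen H d → Z.Sep fun i j => d (e.symm i) (e.symm j) := by
  classical
  haveI := Fintype.ofFinite V
  let β : V → Fin m := fun v => ⟨h.it v, h.it_lt v⟩
  obtain ⟨e, he⟩ := H578.exists_numbering β
  have hadh0 : ∀ v, v ∉ Adh B 0 := by
    rintro v ⟨_, s, hs, _⟩
    omega
  let Z : Tor (Fintype.card V) m k :=
    { tor := fun i => β (e.symm i)
      mono := he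
      surj := by
        intro t
        obtain ⟨v, hv, hvb⟩ := hnew t t.2
        refine ⟨e v, Fin.ext ?_⟩
        show h.it (e.symm (e v)) = t
        rw [e.symm_apply_apply]
        refine le_antisymm (h.it_le t.2 hv) ?_
        by_contra hcon
        exact hvb ((h.mem_bef_iff t.2.le).2 (not_le.1 hcon))
      S := fun t => Finset.univ.filter fun i => e.symm i ∈ Adh B t
      up := fun t => ⟨T.par t, (T.par_le t).trans_lt t.2⟩
      up_le := fun t => T.par_le t
      up_lt := fun t ht => T.par_lt t ht t.2
      root := by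
        intro t ht
        have h0 : t.val = 0 := by
          by_contra hne
          have h1 := T.par_lt t (Nat.pos_of_ne_zero hne) t.2
          have h2 : T.par t = t.val := congrArg Fin.val ht
          omega
        ext i
        rw [Finset.mem_filter, h0]
        simp [hadh0]
      low := by
        intro t a ha
        rw [Finset.mem_filter] at ha
        exact ((h.mem_adh_iff t.2).1 ha.2).2
      sub := by
        intro t a ha
        rw [Finset.mem_filter] at ha
        have h0 : 0 < t.val := by
          rcases Nat.eq_zero_or_pos t.val with h0 | h0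
          · rw [h0] at ha
            exact absurd ha.2 (hadh0 _)
          · exact h0
        have h1 := T.adh t h0 t.2 ha.2
        have h2 : T.par t < m := (T.par_le t).trans_lt t.2
        rcases (h.it_le h2 h1).lt_or_eq with h3 | h3
        · left
          rw [Finset.mem_filter]
          exact ⟨Finset.mem_univ _, (h.mem_adh_iff h2).2 ⟨h1, h3⟩⟩
        · right
          exact Fin.ext h3
      card := by
        intro t
        refine le_trans ?_ (h.card t t.2)
        have h1 : ((Finset.univ.filter fun i => e.symm i ∈ Adh B t :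
            Finset (Fin (Fintype.card V))) : Set (Fin (Fintype.card V))) = e '' Adh B t := by
          ext i
          simp only [Finset.coe_filter, Finset.mem_univ, true_and, Set.mem_setOf_eq,
            Set.mem_image]
          constructor
          · intro hi
            exact ⟨e.symm i, hi, e.apply_symm_apply i⟩
          · rintro ⟨v, hv, rfl⟩
            rw [e.symm_apply_apply]
            exact hv
        rw [← Set.ncard_coe_finset, h1, Set.ncard_image_of_injective _ e.injective] }
  have htor : ∀ v, (Z.tor (e v)).val = h.it v := by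
    intro v
    show h.it (e.symm (e v)) = h.it v
    rw [e.symm_apply_apply]
  have hS : ∀ t : Fin m, ∀ v, e v ∈ Z.S t ↔ v ∈ Adh B t := by
    intro t v
    show e v ∈ Finset.univ.filter (fun i => e.symm i ∈ Adh B t) ↔ _
    rw [Finset.mem_filter, e.symm_apply_apply]
    simp
  have hup : ∀ t : Fin m, (Z.up t).val = T.par t := fun t => rfl
  have hit : ∀ (j : ℕ) (s : Fin m), (Z.tree.par^[j] s).val = T.par^[j] s.val := by
    intro j
    induction j with
    | zero => intro s; rfl
    | succ j ih =>
      intro s
      rw [Function.iterate_succ_apply, Function.iterate_succ_apply, ih]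
      rfl
  have hB : ∀ t : Fin m, ∀ v, Z.Below t (e v) ↔ v ∈ h.Sub T t := by
    intro t v
    constructor
    · rintro ⟨j, hj⟩
      refine ⟨j, ?_⟩
      rw [← htor v, ← hit, hj]
    · rintro ⟨j, hj⟩
      refine ⟨j, Fin.ext ?_⟩
      rw [hit, htor v]
      exact hj
  refine ⟨Fintype.card V, e, Z, htor, hS, ?_, hup, hB, ?_⟩
  · intro t v
    show e v ∈ Z.S t ∪ Finset.univ.filter (fun i => Z.tor i = t) ↔ _
    rw [Finset.mem_union, hS, Finset.mem_filter]
    constructor
    · rintro (h1 | h1)
      · exact h1.1
      · have h2 : h.it v = t := by rw [← htor v, h1.2]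
        rw [← h2]
        exact h.it_mem v
    · intro h1
      rcases (h.it_le t.2 h1).lt_or_eq with h2 | h2
      · exact Or.inl ((h.mem_adh_iff t.2).2 ⟨h1, h2⟩)
      · right
        refine ⟨Finset.mem_univ _, Fin.ext ?_⟩
        rw [htor v, h2]
  · intro d hd hG
    refine ⟨fun i => hd.self _, fun i j hij => hd.pos _ _ fun hc => hij (e.symm.injective hc),
      fun i j => hd.symm _ _, fun i j l => hd.tri _ _ _, ?_⟩
    intro t p q hp hq
    have hp' : e.symm p ∈ h.Sub T t := by
      rw [← hB, e.apply_symm_apply]
      exact hp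
    have hq' : e.symm q ∉ h.Sub T t := by
      rw [← hB, e.apply_symm_apply]
      exact hq
    obtain ⟨a, ha, h1⟩ := h.sep_metric hd hG hp' hq'
    refine ⟨e a, (hS t a).2 ha, ?_⟩
    show d (e.symm p) (e.symm q) = d (e.symm p) (e.symm (e a)) + d (e.symm (e a)) (e.symm q)
    rw [e.symm_apply_apply]
    exact le_antisymm (hd.tri _ _ _) h1

end Glued

end Vale.Agent.P235.K5
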