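import Vale.Agent.P235.Bdl.B1

set_option linter.all false

/-!
# Clique sums of bounded adhesion: the tree of bags, separation, metrics of the bags
-/

namespace Vale.Agent.P235.K5

/-- the vertices of the bags before `t` -/
def Bef {V : Type} (B : ℕ → Set V) (t : ℕ) : Set V := {v | ∃ s < t, v ∈ B s}

/-- the adhesion of the bag `t` -/
def Adh {V : Type} (B : ℕ → Set V) (t : ℕ) : Set V := {v | v ∈ B t ∧ v ∈ Bef B t}

/-- `H` is obtained by gluing the pieces `H[B 0], H[B 1], …, H[B (n - 1)]` one after another, each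
one along a clique with at most `k` vertices. -/
structure Glued (k : ℕ) {V : Type} (H : SimpleGraph V) (n : ℕ) (B : ℕ → Set V) : Prop where
  cover : ∀ v, ∃ t, t < n ∧ v ∈ B t
  card : ∀ t < n, (Adh B t).ncard ≤ k
  clique : ∀ t < n, ∀ u ∈ Adh B t, ∀ v ∈ Adh B t, u ≠ v → H.Adj u v
  sep : ∀ t < n, ∀ u v, u ∈ B t → u ∉ Bef B t → v ∈ Bef B t → v ∉ B t → ¬ H.Adj u v

/-- Sums of pieces of the class `P` (a graph with its root clique) over cliques with at most `k`
vertices. -/
def CliqueSum (k : ℕ) (P : ∀ V : Type, SimpleGraph V → Set V → Prop) {V : Type}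
    (H : SimpleGraph V) : Prop :=
  ∃ (n : ℕ) (B : ℕ → Set V), Glued k H n B ∧
    ∀ t < n, P (B t) (H.induce (B t)) {x | (x : V) ∈ Adh B t}

namespace Glued

variable {k : ℕ} {V : Type} {H : SimpleGraph V} {n : ℕ} {B : ℕ → Set V}

theorem clique_in_bag (h : Glued k H n B) {C : Set V}
    (hC : ∀ u ∈ C, ∀ v ∈ C, u ≠ v → H.Adj u v) :
    ∀ m, 0 < m → m ≤ n → C ⊆ Bef B m → ∃ s < m, C ⊆ B s := by
  intro m
  induction m with
  | zero => intro h0; omega
  | succ m ih =>
    intro _ hmn hCB
    by_cases hm : C ⊆ Bef B m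
    · rcases Nat.eq_zero_or_pos m with h0 | h0
      · refine ⟨0, by omega, fun v hv => ?_⟩
        obtain ⟨s, hs, _⟩ := hm hv
        omega
      · obtain ⟨s, hs, h1⟩ := ih h0 (by omega) hm
        exact ⟨s, by omega, h1⟩
    · rw [Set.not_subset] at hm
      obtain ⟨c, hc, hcm⟩ := hm
      have mem : ∀ v ∈ C, v ∈ B m ∨ v ∈ Bef B m := by
        intro v hv
        obtain ⟨s, hs, h1⟩ := hCB hv
        by_cases hsm : s = m
        · left; rw [← hsm]; exact h1
        · right; exact ⟨s, by omega, h1⟩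
      have hcB : c ∈ B m := (mem c hc).resolve_right hcm
      refine ⟨m, by omega, fun v hv => ?_⟩
      by_contra hvB
      have hvb := (mem v hv).resolve_left hvB
      have hne : c ≠ v := by
        rintro rfl
        exact hcm hvb
      exact h.sep m (by omega) c v hcB hcm hvb hvB (hC c hc v hv hne)

theorem exists_par (h : Glued k H n B) : ∃ par : ℕ → ℕ, par 0 = 0 ∧ (∀ t, par t ≤ t) ∧
    ∀ t, 0 < t → t < n → par t < t ∧ Adh B t ⊆ B (par t) := by
  classical
  have key : ∀ t, ∃ p, (0 < t → t < n → p < t ∧ Adh B t ⊆ B p) ∧ p ≤ t := by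
    intro t
    by_cases ht : 0 < t ∧ t < n
    · obtain ⟨s, hs, h1⟩ := h.clique_in_bag (C := Adh B t) (h.clique t ht.2) t ht.1 ht.2.le
        fun v hv => hv.2
      exact ⟨s, fun _ _ => ⟨hs, h1⟩, hs.le⟩
    · exact ⟨0, fun h1 h2 => absurd ⟨h1, h2⟩ ht, Nat.zero_le _⟩
  choose p hp using key
  refine ⟨p, Nat.le_zero.1 (hp 0).2, fun t => (hp t).2, fun t h1 h2 => (hp t).1 h1 h2⟩

end Glued

/-- The tree of the bags. -/
structure BTree {V : Type} (n : ℕ) (B : ℕ → Set V) where
  par : ℕ → ℕ
  par_zero : par 0 = 0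
  par_le : ∀ t, par t ≤ t
  par_lt : ∀ t, 0 < t → t < n → par t < t
  adh : ∀ t, 0 < t → t < n → Adh B t ⊆ B (par t)

theorem Glued.exists_tree {k : ℕ} {V : Type} {H : SimpleGraph V} {n : ℕ} {B : ℕ → Set V}
    (h : Glued k H n B) : Nonempty (BTree n B) := by
  obtain ⟨p, h0, h1, h2⟩ := h.exists_par
  exact ⟨⟨p, h0, h1, fun t a b => (h2 t a b).1, fun t a b => (h2 t a b).2⟩⟩

namespace BTree

variable {V : Type} {n : ℕ} {B : ℕ → Set V} (T : BTree n B)

/-- `s` is an ancestor of `t` (or `s = t`) -/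
def Desc (s t : ℕ) : Prop := ∃ j : ℕ, T.par^[j] t = s

variable {T}

theorem Desc.refl (t : ℕ) : T.Desc t t := ⟨0, rfl⟩

theorem Desc.trans {a b c : ℕ} (h1 : T.Desc a b) (h2 : T.Desc b c) : T.Desc a c := by
  obtain ⟨i, hi⟩ := h1
  obtain ⟨j, hj⟩ := h2
  exact ⟨i + j, by rw [Function.iterate_add_apply, hj, hi]⟩

theorem Desc.par {a b : ℕ} (h : T.Desc a (T.par b)) : T.Desc a b := by
  obtain ⟨i, hi⟩ := h
  exact ⟨i + 1, by rw [Function.iterate_succ_apply, hi]⟩

theorem Desc.le {a b : ℕ} (h : T.Desc a b) : a ≤ b := by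
  obtain ⟨i, hi⟩ := h
  induction i generalizing b with
  | zero => exact hi.symm.le
  | succ i ih =>
    rw [Function.iterate_succ_apply] at hi
    exact (ih hi).trans (T.par_le b)

theorem Desc.of_ne {a b : ℕ} (h : T.Desc a b) (hne : a ≠ b) : T.Desc a (T.par b) := by
  obtain ⟨i, hi⟩ := h
  cases i with
  | zero => exact absurd hi.symm hne
  | succ i =>
    rw [Function.iterate_succ_apply] at hi
    exact ⟨i, hi⟩

/-- two ancestors of the same node are comparable -/
theorem Desc.comp {a b c : ℕ} (h1 : T.Desc a c) (h2 : T.Desc b c) (hab : a ≤ b) :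
    T.Desc a b := by
  obtain ⟨i, hi⟩ := h1
  obtain ⟨j, hj⟩ := h2
  rcases le_total j i with hji | hij
  · refine ⟨i - j, ?_⟩
    rw [← hj, ← Function.iterate_add_apply, Nat.sub_add_cancel hji, hi]
  · have h3 : T.Desc b a := by
      refine ⟨j - i, ?_⟩
      rw [← hi, ← Function.iterate_add_apply, Nat.sub_add_cancel hij, hj]
    have h4 := h3.le
    have : a = b := le_antisymm hab h4
    rw [this]
    exact Desc.refl b

theorem Desc.zero (t : ℕ) (ht : t < n) : T.Desc 0 t := by
  induction t using Nat.strong_induction_on with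
  | _ t ih =>
    rcases Nat.eq_zero_or_pos t with h0 | h0
    · rw [h0]; exact Desc.refl 0
    · have h1 := T.par_lt t h0 ht
      exact Desc.par (ih _ h1 (h1.trans ht))

end BTree

namespace Glued

variable {k : ℕ} {V : Type} {H : SimpleGraph V} {n : ℕ} {B : ℕ → Set V}

open Classical in
/-- the bag where a vertex appears -/
noncomputable def it (h : Glued k H n B) (v : V) : ℕ := Nat.find (h.cover v)

theorem it_lt (h : Glued k H n B) (v : V) : h.it v < n := by
  classical
  exact (Nat.find_spec (h.cover v)).1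

theorem it_mem (h : Glued k H n B) (v : V) : v ∈ B (h.it v) := by
  classical
  exact (Nat.find_spec (h.cover v)).2

theorem it_le (h : Glued k H n B) {v : V} {t : ℕ} (ht : t < n) (hv : v ∈ B t) : h.it v ≤ t := by
  classical
  exact Nat.find_min' (h.cover v) ⟨ht, hv⟩

theorem mem_bef_iff (h : Glued k H n B) {v : V} {t : ℕ} (ht : t ≤ n) :
    v ∈ Bef B t ↔ h.it v < t := by
  constructor
  · rintro ⟨s, hs, hv⟩
    exact (h.it_le (lt_of_lt_of_le hs ht) hv).trans_lt hs
  · intro h1
    exact ⟨_, h1, h.it_mem v⟩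

theorem mem_adh_iff (h : Glued k H n B) {v : V} {t : ℕ} (ht : t < n) :
    v ∈ Adh B t ↔ v ∈ B t ∧ h.it v < t := by
  unfold Adh
  rw [Set.mem_setOf_eq, h.mem_bef_iff ht.le]

/-- an edge lies in the bag of its later end -/
theorem edge (h : Glued k H n B) {u v : V} (huv : H.Adj u v) (hle : h.it u ≤ h.it v) :
    u ∈ B (h.it v) := by
  rcases hle.lt_or_eq with h1 | h1
  · by_contra hu
    have h2 : v ∉ Bef B (h.it v) := by
      rw [h.mem_bef_iff (h.it_lt v).le]
      exact lt_irrefl _
    have h3 : u ∈ Bef B (h.it v) := by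
      rw [h.mem_bef_iff (h.it_lt v).le]
      exact h1
    exact h.sep _ (h.it_lt v) v u (h.it_mem v) h2 h3 hu huv.symm
  · rw [← h1]
    exact h.it_mem u

variable (T : BTree n B)

/-- the vertices which appear in the subtree of `t` -/
def Sub (h : Glued k H n B) (T : BTree n B) (t : ℕ) : Set V := {v | T.Desc t (h.it v)}

variable {T}

/-- the bags of a vertex are below the bag where it appears -/
theorem desc_of_mem (h : Glued k H n B) {v : V} {t : ℕ} (ht : t < n) (hv : v ∈ B t) :
    T.Desc (h.it v) t := by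
  induction t using Nat.strong_induction_on with
  | _ t ih =>
    by_cases h1 : h.it v = t
    · rw [h1]; exact BTree.Desc.refl t
    · have h2 : h.it v < t := lt_of_le_of_ne (h.it_le ht hv) h1
      have h3 : v ∈ Adh B t := (h.mem_adh_iff ht).2 ⟨hv, h2⟩
      have h0 : 0 < t := by omega
      have h4 := T.par_lt t h0 ht
      exact BTree.Desc.par (ih _ h4 (h4.trans ht) (T.adh t h0 ht h3))

/-- a vertex of a bag below `s` appears below `s` or is in the adhesion of `s` -/
theorem mem_sub_or (h : Glued k H n B) {v : V} {s t : ℕ} (ht : t < n) (hst : T.Desc s t)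
    (hv : v ∈ B t) : v ∈ h.Sub T s ∨ v ∈ Adh B s := by
  induction t using Nat.strong_induction_on with
  | _ t ih =>
    by_cases h1 : h.it v = t
    · left
      show T.Desc s (h.it v)
      rw [h1]; exact hst
    · have h2 : h.it v < t := lt_of_le_of_ne (h.it_le ht hv) h1
      have h3 : v ∈ Adh B t := (h.mem_adh_iff ht).2 ⟨hv, h2⟩
      by_cases hs : s = t
      · right; rw [hs]; exact h3
      · have h0 : 0 < t := by omega
        have h4 := T.par_lt t h0 ht
        exact ih _ h4 (h4.trans ht) (hst.of_ne hs) (T.adh t h0 ht h3)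

/-- the edges which leave the subtree end in the adhesion -/
theorem leave (h : Glued k H n B) {s : ℕ} {u v : V} (hu : u ∈ h.Sub T s) (hv : v ∉ h.Sub T s)
    (huv : H.Adj u v) : v ∈ Adh B s := by
  rcases le_total (h.it v) (h.it u) with h1 | h1
  · have h2 := h.edge huv.symm h1
    exact (h.mem_sub_or (h.it_lt u) hu h2).resolve_left hv
  · have h2 := h.edge huv h1
    have h3 : T.Desc (h.it u) (h.it v) := h.desc_of_mem (h.it_lt v) h2
    exact absurd (BTree.Desc.trans hu h3) hv

/-- the vertices of the adhesion do not appear below -/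
theorem adh_notMem_sub (h : Glued k H n B) {s : ℕ} (hs : s < n) {v : V} (hv : v ∈ Adh B s) :
    v ∉ h.Sub T s := by
  intro h1
  have h2 : s ≤ h.it v := BTree.Desc.le h1
  have h3 := ((h.mem_adh_iff hs).1 hv).2
  omega

end Glued

end Vale.Agent.P235.K5
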