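import Vale.Agent.P235.K5.H12.Fin
import Vale.Agent.P235.K5.H332.NFin
import Vale.Agent.P235.K5.H750.Presc3

set_option linter.all false

/-!
# Clique sums over at most three vertices: the theorem without hypotheses
-/

namespace Vale.Agent.P235.K5.H12

open Vale.Agent.P235 Vale.Agent.P235.K5

/-- **Clique sums over at most three vertices, closed form.** -/
theorem main (c : ℝ) (hc : 0 < c) (hc1 : c ≤ 1) :
    ∃ K : ℝ, 1 ≤ K ∧ ∀ (V : Type) [Finite V] (G H : SimpleGraph V), G ≤ H → G.Connected →
      CliqueSum 3 (H500.PC c) H → DistortionLE G K :=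
  fin K5.H332.nthm H750.prescStmt c hc hc1

end Vale.Agent.P235.K5.H12
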