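import Vale.Agent.P235.K5.H12.Int

set_option linter.all false

/-!
# Separation, the metrics of the bags, the last common bag
-/

namespace Vale.Agent.P235.K5

open Finset

section mcs

variable {V : Type} {d : V → V → ℝ}

/-- McShane extension from a set -/
noncomputable def Phi [Finite V] (d : V → V → ℝ) (f : V → ℝ) (S : Set V) (v : V) : ℝ :=
  by
    classical
    exact if h : S.Nonempty then
      (Set.toFinite S).toFinset.inf' (by simpa using h) fun a => f a + d a v
    else 0

theorem Phi_le [Finite V] {f : V → ℝ} {S : Set V} {a : V} (ha : a ∈ S) (v : V) :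
    Phi d f S v ≤ f a + d a v := by
  classical
  have h : S.Nonempty := ⟨a, ha⟩
  unfold Phi
  rw [dif_pos h]
  exact Finset.inf'_le (fun a => f a + d a v) (by simpa using ha)

theorem exists_Phi [Finite V] {f : V → ℝ} {S : Set V} (h : S.Nonempty) (v : V) :
    ∃ a ∈ S, Phi d f S v = f a + d a v := by
  classical
  have hS : (Set.toFinite S).toFinset.Nonempty := by simpa using h
  obtain ⟨a, ha, h1⟩ := Finset.exists_mem_eq_inf' hS fun a => f a + d a v
  refine ⟨a, by simpa using ha, ?_⟩
  unfold Phi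
  rw [dif_pos h]
  exact h1

theorem Phi_sub_le [Finite V] (hd : IsMet d) {f : V → ℝ} {S : Set V} (u v : V) :
    Phi d f S u - Phi d f S v ≤ d u v := by
  classical
  by_cases h : S.Nonempty
  · obtain ⟨a, ha, h1⟩ := exists_Phi (d := d) (f := f) h v
    have h2 := Phi_le (d := d) (f := f) ha u
    have h3 := hd.tri a v u
    rw [hd.symm v u] at h3
    linarith
  · unfold Phi
    rw [dif_neg h, dif_neg h, sub_zero]
    rcases eq_or_ne u v with e | e
    · rw [e, hd.self]
    · exact (hd.pos u v e).le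

theorem Phi_lip [Finite V] (hd : IsMet d) {f : V → ℝ} {S : Set V} (u v : V) :
    |Phi d f S u - Phi d f S v| ≤ d u v := by
  rw [abs_le]
  have h1 := Phi_sub_le hd (f := f) (S := S) u v
  have h2 := Phi_sub_le hd (f := f) (S := S) v u
  rw [hd.symm v u] at h2
  constructor <;> linarith

theorem Phi_eq [Finite V] (hd : IsMet d) {f : V → ℝ} {S : Set V}
    (hf : ∀ a ∈ S, ∀ b ∈ S, f b - f a ≤ d a b) {v : V} (hv : v ∈ S) : Phi d f S v = f v := by
  apply le_antisymm
  · have := Phi_le (d := d) (f := f) hv v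
    rw [hd.self, add_zero] at this
    exact this
  · obtain ⟨a, ha, h1⟩ := exists_Phi (d := d) (f := f) ⟨v, hv⟩ v
    have := hf a ha v hv
    linarith

end mcs

namespace Glued

variable {k : ℕ} {V : Type} {H : SimpleGraph V} {n : ℕ} {B : ℕ → Set V} {T : BTree n B}
  {d : V → V → ℝ}

/-- **Separation of the metric.** -/
theorem sep_metric [Finite V] (h : Glued k H n B) (hd : IsMet d) (hG : Gen H d) {s : ℕ}
    {x y : V} (hx : x ∈ h.Sub T s) (hy : y ∉ h.Sub T s) :
    ∃ a ∈ Adh B s, d x a + d a y ≤ d x y := by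
  classical
  by_cases hne : (Adh B s).Nonempty
  · set f : V → ℝ := fun v => if v ∈ h.Sub T s then d x v else Phi d (d x) (Adh B s) v with hf
    have hL : ∀ a b, |d x a - d x b| ≤ d a b := by
      intro a b
      rw [abs_le]
      have h1 := hd.tri x a b
      have h2 := hd.tri x b a
      rw [hd.symm b a] at h2
      constructor <;> linarith
    have hE : ∀ v ∈ Adh B s, Phi d (d x) (Adh B s) v = d x v := fun v hv =>
      Phi_eq hd (fun a _ b _ => by
        have := (abs_le.1 (hL b a)).2
        rw [hd.symm b a] at this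
        linarith) hv
    have h1 := hG f (by
      intro u v huv
      simp only [hf]
      by_cases hu : u ∈ h.Sub T s <;> by_cases hv : v ∈ h.Sub T s
      · rw [if_pos hu, if_pos hv]
        exact hL u v
      · rw [if_pos hu, if_neg hv, hE v (h.leave hu hv huv)]
        exact hL u v
      · rw [if_neg hu, if_pos hv, hE u (h.leave hv hu huv.symm)]
        exact hL u v
      · rw [if_neg hu, if_neg hv]
        exact Phi_lip hd u v) x y
    simp only [hf] at h1
    rw [if_pos hx, if_neg hy, hd.self] at h1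
    obtain ⟨a, ha, h2⟩ := exists_Phi (d := d) (f := d x) hne y
    refine ⟨a, ha, ?_⟩
    rw [h2] at h1
    have := (abs_le.1 h1).1
    linarith
  · exfalso
    set f : V → ℝ := fun v => if v ∈ h.Sub T s then 0 else d x y + 1 with hf
    have h1 := hG f (by
      intro u v huv
      have hp := (hd.pos u v huv.ne).le
      simp only [hf]
      by_cases hu : u ∈ h.Sub T s <;> by_cases hv : v ∈ h.Sub T s
      · rw [if_pos hu, if_pos hv]
        simpa using hp
      · exact absurd ⟨v, h.leave hu hv huv⟩ hne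
      · exact absurd ⟨u, h.leave hv hu huv.symm⟩ hne
      · rw [if_neg hu, if_neg hv]
        simpa using hp) x y
    simp only [hf] at h1
    rw [if_pos hx, if_neg hy] at h1
    have := (abs_le.1 h1).1
    linarith

/-- the metric of a part to which everything else is attached along cliques -/
theorem gen_induce [Finite V] (hd : IsMet d) (hG : Gen H d) {U : Set V} (R : V → Set V)
    (hR : ∀ v ∉ U, R v ⊆ U)
    (hcl : ∀ v ∉ U, ∀ a ∈ R v, ∀ b ∈ R v, a ≠ b → H.Adj a b)
    (h1 : ∀ v w, v ∉ U → w ∉ U → H.Adj v w → R v = R w)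
    (h2 : ∀ v u, v ∉ U → u ∈ U → H.Adj v u → u ∈ R v) :
    Gen (H.induce U) (fun x y : U => d x y) := by
  classical
  intro f hf x y
  set f' : V → ℝ := fun v => if h : v ∈ U then f ⟨v, h⟩ else 0 with hf'
  have hfU : ∀ v (h : v ∈ U), f' v = f ⟨v, h⟩ := fun v h => dif_pos h
  have hlip : ∀ u v, u ∈ U → v ∈ U → (u ≠ v → H.Adj u v) → |f' u - f' v| ≤ d u v := by
    intro u v hu hv huv
    rcases eq_or_ne u v with e | e
    · rw [e, sub_self, abs_zero, hd.self]
    · rw [hfU u hu, hfU v hv]
      exact hf ⟨u, hu⟩ ⟨v, hv⟩ (huv e)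
  have hE : ∀ v ∉ U, ∀ u ∈ R v, Phi d f' (R v) u = f' u := fun v hv u hu =>
    Phi_eq hd (fun a ha b hb => by
      have := (abs_le.1 (hlip b a (hR v hv hb) (hR v hv ha) (hcl v hv b hb a ha))).2
      rw [hd.symm b a] at this
      exact this) hu
  have h3 := hG (fun v => if v ∈ U then f' v else Phi d f' (R v) v) (by
    intro u v huv
    by_cases hu : u ∈ U <;> by_cases hv : v ∈ U
    · simp only [if_pos hu, if_pos hv]
      exact hlip u v hu hv fun _ => huv
    · simp only [if_pos hu, if_neg hv]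
      rw [← hE v hv u (h2 v u hv hu huv.symm)]
      exact Phi_lip hd u v
    · simp only [if_neg hu, if_pos hv]
      rw [← hE u hu v (h2 u v hu hv huv)]
      exact Phi_lip hd u v
    · simp only [if_neg hu, if_neg hv]
      rw [h1 u v hu hv huv]
      exact Phi_lip hd u v) x y
  simp only [if_pos x.2, if_pos y.2] at h3
  rw [hfU _ x.2, hfU _ y.2] at h3
  exact h3

end Glued

namespace BTree

variable {V : Type} {n : ℕ} {B : ℕ → Set V} {T : BTree n B}

/-- the child towards a node below -/
theorem exists_child {t m : ℕ} (hm : m < n) (h : T.Desc t m) (hne : t ≠ m) :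
    ∃ c, t < c ∧ c < n ∧ T.par c = t ∧ T.Desc c m := by
  induction m using Nat.strong_induction_on with
  | _ m ih =>
    have h1 := h.of_ne hne
    have h0 : 0 < m := by
      rcases Nat.eq_zero_or_pos m with e | e
      · subst e
        have := h.le
        omega
      · exact e
    have h2 := T.par_lt m h0 hm
    by_cases h3 : t = T.par m
    · exact ⟨m, by rw [h3]; exact h2, hm, h3.symm, Desc.refl m⟩
    · obtain ⟨c, h4, h5, h6, h7⟩ := ih _ h2 (h2.trans hm) h1 h3
      exact ⟨c, h4, h5, h6, Desc.par h7⟩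

theorem child_unique {t m c c' : ℕ} (h1 : t < c) (h2 : T.par c = t) (h3 : T.Desc c m)
    (h1' : t < c') (h2' : T.par c' = t) (h3' : T.Desc c' m) : c = c' := by
  by_contra hne
  rcases Nat.lt_or_gt_of_ne hne with h | h
  · have h4 := (h3.comp h3' h.le).of_ne hne
    rw [h2'] at h4
    have := h4.le
    omega
  · have h4 := (h3'.comp h3 h.le).of_ne (Ne.symm hne)
    rw [h2] at h4
    have := h4.le
    omega

/-- the last common node -/
theorem exists_last (a b : ℕ) (ha : a < n) (hb : b < n) :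
    ∃ t, t < n ∧ T.Desc t a ∧ T.Desc t b ∧
      (a = t ∨ ∃ c, t < c ∧ c < n ∧ T.par c = t ∧ T.Desc c a ∧ ¬ T.Desc c b) ∧
      (b = t ∨ ∃ c, t < c ∧ c < n ∧ T.par c = t ∧ T.Desc c b ∧ ¬ T.Desc c a) := by
  classical
  have hex : ∃ t, T.Desc t a ∧ T.Desc t b := ⟨0, Desc.zero a ha, Desc.zero b hb⟩
  have hb1 : ∀ t, (T.Desc t a ∧ T.Desc t b) → t ≤ a := fun t h => h.1.le
  obtain ⟨t0, ht0⟩ := hex
  have hm := Nat.findGreatest_spec (P := fun t => T.Desc t a ∧ T.Desc t b) (hb1 t0 ht0) ht0
  have hmax : ∀ t, (T.Desc t a ∧ T.Desc t b) →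
      t ≤ Nat.findGreatest (fun t => T.Desc t a ∧ T.Desc t b) a := fun t h =>
    Nat.le_findGreatest (hb1 t h) h
  set t := Nat.findGreatest (fun t => T.Desc t a ∧ T.Desc t b) a with ht
  refine ⟨t, hm.1.le.trans_lt ha, hm.1, hm.2, ?_, ?_⟩
  · by_cases h1 : a = t
    · left; exact h1
    · right
      obtain ⟨c, h2, h3, h4, h5⟩ := exists_child ha hm.1 (Ne.symm h1)
      refine ⟨c, h2, h3, h4, h5, fun h6 => ?_⟩
      have := hmax c ⟨h5, h6⟩
      omega
  · by_cases h1 : b = t
    · left; exact h1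
    · right
      obtain ⟨c, h2, h3, h4, h5⟩ := exists_child hb hm.2 (Ne.symm h1)
      refine ⟨c, h2, h3, h4, h5, fun h6 => ?_⟩
      have := hmax c ⟨h6, h5⟩
      omega

end BTree

namespace Glued

variable {k : ℕ} {V : Type} {H : SimpleGraph V} {n : ℕ} {B : ℕ → Set V}
  {d : V → V → ℝ}

/-- **The metric of a bag is generated by the edges in the bag.** -/
theorem gen_bag [Finite V] (h : Glued k H n B) (hd : IsMet d) (hG : Gen H d) {t : ℕ}
    (ht : t < n) : Gen (H.induce (B t)) (fun x y : B t => d x y) := by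
  classical
  obtain ⟨T⟩ := h.exists_tree
  -- the child towards a vertex
  have hch : ∀ v, v ∉ B t → v ∈ h.Sub T t →
      ∃ c, t < c ∧ c < n ∧ T.par c = t ∧ T.Desc c (h.it v) := by
    intro v hv hs
    refine BTree.exists_child (h.it_lt v) hs ?_
    intro e
    apply hv
    rw [e]
    exact h.it_mem v
  let R : V → Set V := fun v => if hv : v ∉ B t ∧ v ∈ h.Sub T t then
    Adh B (hch v hv.1 hv.2).choose else Adh B t
  have hR1 : ∀ v (h1 : v ∉ B t) (h2 : v ∈ h.Sub T t), R v = Adh B (hch v h1 h2).choose :=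
    fun v h1 h2 => dif_pos ⟨h1, h2⟩
  have hR2 : ∀ v, v ∉ h.Sub T t → R v = Adh B t := fun v h2 => dif_neg fun h3 => h2 h3.2
  have hcs := fun v h1 h2 => (hch v h1 h2).choose_spec
  have hsubB : ∀ c, t < c → c < n → T.par c = t → Adh B c ⊆ B t := by
    intro c h1 h2 h3
    have := T.adh c (by omega) h2
    rwa [h3] at this
  refine gen_induce hd hG R ?_ ?_ ?_ ?_
  · intro v hv
    by_cases hs : v ∈ h.Sub T t
    · rw [hR1 v hv hs]
      obtain ⟨h1, h2, h3, h4⟩ := hcs v hv hs
      exact hsubB _ h1 h2 h3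
    · rw [hR2 v hs]
      exact fun u hu => hu.1
  · intro v hv
    by_cases hs : v ∈ h.Sub T t
    · rw [hR1 v hv hs]
      obtain ⟨h1, h2, h3, h4⟩ := hcs v hv hs
      exact h.clique _ h2
    · rw [hR2 v hs]
      exact h.clique _ ht
  · intro v w hv hw hvw
    by_cases hs : v ∈ h.Sub T t <;> by_cases hs' : w ∈ h.Sub T t
    · rw [hR1 v hv hs, hR1 w hw hs']
      obtain ⟨h1, h2, h3, h4⟩ := hcs v hv hs
      obtain ⟨h1', h2', h3', h4'⟩ := hcs w hw hs'
      have h5 : T.Desc (hch v hv hs).choose (h.it w) := by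
        by_contra hcon
        have h6 : w ∈ Adh B (hch v hv hs).choose := h.leave (T := T) h4 hcon hvw
        exact hw (hsubB _ h1 h2 h3 h6)
      rw [BTree.child_unique h1 h3 h5 h1' h3' h4']
    · exact absurd (h.leave hs hs' hvw).1 hw
    · exact absurd (h.leave hs' hs hvw.symm).1 hv
    · rw [hR2 v hs, hR2 w hs']
  · intro v u hv hu hvu
    by_cases hs : v ∈ h.Sub T t
    · rw [hR1 v hv hs]
      obtain ⟨h1, h2, h3, h4⟩ := hcs v hv hs
      refine h.leave (T := T) h4 ?_ hvu
      intro h5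
      have h6 : T.Desc (h.it u) t := h.desc_of_mem ht hu
      have h7 : T.Desc (hch v hv hs).choose t := BTree.Desc.trans h5 h6
      have := h7.le
      omega
    · rw [hR2 v hs]
      rcases h.mem_sub_or (T := T) ht (BTree.Desc.refl t) hu with h5 | h5
      · exact absurd (h.leave h5 hs hvu.symm).1 hv
      · exact h5

/-- **The last common bag of two vertices.** -/
theorem last_bag (h : Glued k H n B) (T : BTree n B) (x y : V) :
    ∃ t, t < n ∧ T.Desc t (h.it x) ∧ T.Desc t (h.it y) ∧
      (h.it x = t ∨ ∃ c, t < c ∧ c < n ∧ T.par c = t ∧ x ∈ h.Sub T c ∧ y ∉ h.Sub T c) ∧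
      (h.it y = t ∨ ∃ c, t < c ∧ c < n ∧ T.par c = t ∧ y ∈ h.Sub T c ∧ x ∉ h.Sub T c) :=
  BTree.exists_last (h.it x) (h.it y) (h.it_lt x) (h.it_lt y)

end Glued

end Vale.Agent.P235.K5
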